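import Vale.Agent.P272.K.Inv.Wirt
import Mathlib.Analysis.SpecialFunctions.Log.Deriv
import Mathlib.Analysis.Calculus.Deriv.Inv
import Mathlib.Analysis.InnerProductSpace.Calculus

/-! Second order Wirtinger calculus: `cHess` of compositions. -/

open scoped Manifold ContDiff ComplexOrder Topology
open Complex

set_option linter.all false

noncomputable section

namespace Vale.Agent.P272.K

variable {n : ℕ} {f g : Cm n → ℂ} {τ : Cm n → Cm n} {z : Cm n} {i j k : Fin n}

lemma contDiffAt_dz {r m : WithTop ℕ∞} (hf : ContDiffAt ℝ r f z) (h : m + 1 ≤ r) :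
    ContDiffAt ℝ m (dz i f) z := by
  have h1 : ContDiffAt ℝ m (fderiv ℝ f) z := hf.fderiv_right h
  unfold dz
  exact ((h1.clm_apply contDiffAt_const).sub
    (contDiffAt_const.mul (h1.clm_apply contDiffAt_const))).div_const 2

lemma contDiffAt_dzb {r m : WithTop ℕ∞} (hf : ContDiffAt ℝ r f z) (h : m + 1 ≤ r) :
    ContDiffAt ℝ m (dzb i f) z := by
  have h1 : ContDiffAt ℝ m (fderiv ℝ f) z := hf.fderiv_right h
  unfold dzb
  exact ((h1.clm_apply contDiffAt_const).add
    (contDiffAt_const.mul (h1.clm_apply contDiffAt_const))).div_const 2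

lemma diff_of_c1 (hf : ContDiffAt ℝ 1 f z) : DifferentiableAt ℝ f z :=
  hf.differentiableAt (by norm_num)

lemma differentiableAt_dz (hf : ContDiffAt ℝ 2 f z) : DifferentiableAt ℝ (dz i f) z :=
  diff_of_c1 (contDiffAt_dz hf (by norm_num))

lemma differentiableAt_dzb (hf : ContDiffAt ℝ 2 f z) : DifferentiableAt ℝ (dzb i f) z :=
  diff_of_c1 (contDiffAt_dzb hf (by norm_num))

lemma fderiv_fderiv_symm (hf : ContDiffAt ℝ 2 f z) (v w : Cm n) :
    fderiv ℝ (fun y => fderiv ℝ f y v) z w = fderiv ℝ (fun y => fderiv ℝ f y w) z v := by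
  have h1 : DifferentiableAt ℝ (fderiv ℝ f) z :=
    (hf.fderiv_right (m := 1) (by norm_num)).differentiableAt (by norm_num)
  have h2 : ∀ v : Cm n, fderiv ℝ (fun y => fderiv ℝ f y v) z = (fderiv ℝ (fderiv ℝ f) z).flip v := by
    intro v
    rw [fderiv_clm_apply h1 (differentiableAt_const v)]
    ext w; simp
  rw [h2, h2]
  simp only [ContinuousLinearMap.flip_apply]
  exact (hf.isSymmSndFDerivAt (by simp)) w v

lemma diff_fd (hf : ContDiffAt ℝ 2 f z) (v : Cm n) :
    DifferentiableAt ℝ (fun y => fderiv ℝ f y v) z :=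
  ((hf.fderiv_right (m := 1) (by norm_num)).clm_apply contDiffAt_const).differentiableAt
    (by norm_num)

lemma fderiv_lin (a b : ℂ) (hf : ContDiffAt ℝ 2 f z) (v w u : Cm n) :
    fderiv ℝ (fun y => (fderiv ℝ f y v + a * fderiv ℝ f y w) / b) z u =
      (fderiv ℝ (fun y => fderiv ℝ f y v) z u + a * fderiv ℝ (fun y => fderiv ℝ f y w) z u) / b := by
  have h1 := diff_fd hf v
  have h2 := diff_fd hf w
  have h3 : HasFDerivAt (fun y => (fderiv ℝ f y v + a * fderiv ℝ f y w) / b)
      (b⁻¹ • (fderiv ℝ (fun y => fderiv ℝ f y v) z + a • fderiv ℝ (fun y => fderiv ℝ f y w) z)) z := by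
    have := (h1.hasFDerivAt.add (h2.hasFDerivAt.const_smul a)).const_smul b⁻¹
    refine this.congr_of_eventuallyEq (Filter.Eventually.of_forall fun y => ?_)
    simp only [Pi.smul_apply, Pi.add_apply, smul_eq_mul]
    rw [div_eq_inv_mul]
  rw [h3.fderiv]
  simp only [smul_apply, add_apply, smul_eq_mul]
  rw [div_eq_inv_mul]

lemma dzb_eq' : dzb i f = fun y => (fderiv ℝ f y (Pi.single i 1) +
    Complex.I * fderiv ℝ f y (Pi.single i Complex.I)) / 2 := rfl

lemma dz_eq' : dz i f = fun y => (fderiv ℝ f y (Pi.single i 1) +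
    (-Complex.I) * fderiv ℝ f y (Pi.single i Complex.I)) / 2 := by
  funext y; unfold dz; ring

lemma dz_dzb_comm (hf : ContDiffAt ℝ 2 f z) : dz i (dzb j f) z = dzb j (dz i f) z := by
  rw [dzb_eq' (i := j) (f := dz i f), dz_eq' (i := i) (f := dzb j f)]
  simp only []
  rw [dzb_eq' (i := j) (f := f), dz_eq' (i := i) (f := f)]
  rw [fderiv_lin _ _ hf, fderiv_lin _ _ hf, fderiv_lin _ _ hf, fderiv_lin _ _ hf]
  rw [fderiv_fderiv_symm hf (Pi.single j 1) (Pi.single i 1),
    fderiv_fderiv_symm hf (Pi.single j Complex.I) (Pi.single i 1),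
    fderiv_fderiv_symm hf (Pi.single j 1) (Pi.single i Complex.I),
    fderiv_fderiv_symm hf (Pi.single j Complex.I) (Pi.single i Complex.I)]
  ring

lemma dz_dz_comm (hf : ContDiffAt ℝ 2 f z) : dz i (dz j f) z = dz j (dz i f) z := by
  rw [dz_eq' (i := j) (f := dz i f), dz_eq' (i := i) (f := dz j f)]
  simp only []
  rw [dz_eq' (i := j) (f := f), dz_eq' (i := i) (f := f)]
  rw [fderiv_lin _ _ hf, fderiv_lin _ _ hf, fderiv_lin _ _ hf, fderiv_lin _ _ hf]
  rw [fderiv_fderiv_symm hf (Pi.single j 1) (Pi.single i 1),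
    fderiv_fderiv_symm hf (Pi.single j Complex.I) (Pi.single i 1),
    fderiv_fderiv_symm hf (Pi.single j 1) (Pi.single i Complex.I),
    fderiv_fderiv_symm hf (Pi.single j Complex.I) (Pi.single i Complex.I)]
  ring

lemma dzb_dzb_comm (hf : ContDiffAt ℝ 2 f z) : dzb i (dzb j f) z = dzb j (dzb i f) z := by
  rw [dzb_eq' (i := j) (f := dzb i f), dzb_eq' (i := i) (f := dzb j f)]
  simp only []
  rw [dzb_eq' (i := j) (f := f), dzb_eq' (i := i) (f := f)]
  rw [fderiv_lin _ _ hf, fderiv_lin _ _ hf, fderiv_lin _ _ hf, fderiv_lin _ _ hf]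
  rw [fderiv_fderiv_symm hf (Pi.single j 1) (Pi.single i 1),
    fderiv_fderiv_symm hf (Pi.single j Complex.I) (Pi.single i 1),
    fderiv_fderiv_symm hf (Pi.single j 1) (Pi.single i Complex.I),
    fderiv_fderiv_symm hf (Pi.single j Complex.I) (Pi.single i Complex.I)]
  ring

/-- entries of the Jacobian matrix of a holomorphic map are holomorphic -/
lemma jmat_holo (h : ContDiffAt ℂ ω τ z) (p i : Fin n) :
    ContDiffAt ℂ ω (fun y => jmat τ y p i) z := by
  have h1 : ContDiffAt ℂ ω (fderiv ℂ τ) z := h.fderiv_right (m := ω) (by exact le_top)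
  have h2 : ContDiffAt ℂ ω (fun y => (fderiv ℂ τ y (Pi.single i 1)) p) z := by
    have h3 : ContDiffAt ℂ ω (fun y => fderiv ℂ τ y (Pi.single i 1)) z :=
      h1.clm_apply contDiffAt_const
    exact (contDiffAt_pi.1 h3) p
  refine h2.congr_of_eventuallyEq ?_
  have h4 : ∀ᶠ y in 𝓝 z, ContDiffAt ℂ ω τ y := h.eventually (by simp)
  filter_upwards [h4] with y hy
  exact jmat_apply (hy.differentiableAt (by simp)) p i

lemma cHess_apply {f : Cm n → ℝ} (j k : Fin n) :
    cHess f z j k = dz j (dzb k fun y => (f y : ℂ)) z := rfl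

lemma ofReal_contDiffAt {f : Cm n → ℝ} {r : WithTop ℕ∞} (hf : ContDiffAt ℝ r f z) :
    ContDiffAt ℝ r (fun y => (f y : ℂ)) z :=
  Complex.ofRealCLM.contDiff.contDiffAt.comp z hf

/-- Complex Hessian of a composition with a holomorphic map. -/
lemma cHess_comp {f : Cm n → ℝ} (hf : ContDiffAt ℝ 2 f (τ z)) (h : ContDiffAt ℂ ω τ z) :
    cHess (fun y => f (τ y)) z =
      (jmat τ z).transpose * cHess f (τ z) * (jmat τ z).map (starRingEnd ℂ) := by
  have hF : ContDiffAt ℝ 2 (fun y => (f y : ℂ)) (τ z) := ofReal_contDiffAt hf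
  have hev : ∀ᶠ y in 𝓝 z, ContDiffAt ℂ ω τ y := h.eventually (by simp)
  have hev2 : ∀ᶠ y in 𝓝 z, ContDiffAt ℝ 2 (fun y => (f y : ℂ)) (τ y) :=
    h.continuousAt.eventually (hF.eventually (by simp))
  ext j k
  rw [cHess_apply]
  have h1 : dzb k (fun y => ((f (τ y) : ℝ) : ℂ)) =ᶠ[𝓝 z]
      fun y => ∑ q, dzb q (fun y => (f y : ℂ)) (τ y) * cj (jmat τ y q k) := by
    filter_upwards [hev, hev2] with y hy hy2
    exact dzb_comp_holo (f := fun y => (f y : ℂ)) (hy2.differentiableAt (by norm_num))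
      (hy.differentiableAt (by simp))
  rw [dz_congr h1]
  have hd1 : ∀ q, DifferentiableAt ℝ (fun y => dzb q (fun y => (f y : ℂ)) (τ y)) z := by
    intro q
    exact (differentiableAt_dzb hF).comp z ((h.differentiableAt (by simp)).restrictScalars ℝ)
  have hd2 : ∀ q, DifferentiableAt ℝ (fun y => jmat τ y q k) z := fun q =>
    ((jmat_holo h q k).differentiableAt (by simp)).restrictScalars ℝ
  have hd3 : ∀ q, DifferentiableAt ℝ (fun y => cj (jmat τ y q k)) z := by
    intro q
    exact Complex.conjCLE.differentiableAt.comp z (hd2 q)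
  rw [dz_sum (F := fun q y => dzb q (fun y => (f y : ℂ)) (τ y) * cj (jmat τ y q k)) Finset.univ
    fun q _ => (hd1 q).mul (hd3 q)]
  have h2 : ∀ q, dz j (fun y => dzb q (fun y => (f y : ℂ)) (τ y) * cj (jmat τ y q k)) z =
      ∑ p, jmat τ z p j * cHess f (τ z) p q * cj (jmat τ z q k) := by
    intro q
    rw [dz_mul (hd1 q) (hd3 q), dz_cj (hd2 q),
      dzb_of_holo ((jmat_holo h q k).differentiableAt (by simp)),
      dz_comp_holo (differentiableAt_dzb hF) (h.differentiableAt (by simp))]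
    simp only [cj, map_zero, mul_zero, add_zero]
    rw [Finset.sum_mul]
    refine Finset.sum_congr rfl fun p _ => ?_
    rw [cHess_apply]; ring
  rw [Finset.sum_congr rfl fun q _ => h2 q]
  simp only [Matrix.mul_apply, Matrix.transpose_apply, Matrix.map_apply, Finset.sum_mul]

lemma cHess_add {f g : Cm n → ℝ} (hf : ContDiffAt ℝ 2 f z) (hg : ContDiffAt ℝ 2 g z) :
    cHess (fun y => f y + g y) z = cHess f z + cHess g z := by
  have hF : ContDiffAt ℝ 2 (fun y => (f y : ℂ)) z := ofReal_contDiffAt hf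
  have hG : ContDiffAt ℝ 2 (fun y => (g y : ℂ)) z := ofReal_contDiffAt hg
  ext j k
  rw [Matrix.add_apply, cHess_apply, cHess_apply, cHess_apply]
  have h1 : dzb k (fun y => ((f y + g y : ℝ) : ℂ)) =ᶠ[𝓝 z]
      fun y => dzb k (fun y => (f y : ℂ)) y + dzb k (fun y => (g y : ℂ)) y := by
    filter_upwards [hF.eventually (by simp), hG.eventually (by simp)] with y hy hy2
    rw [← dzb_add (hy.differentiableAt (by norm_num)) (hy2.differentiableAt (by norm_num))]
    simp
  rw [dz_congr h1, dz_add (differentiableAt_dzb hF) (differentiableAt_dzb hG)]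

lemma cHess_congr {f g : Cm n → ℝ} (h : f =ᶠ[𝓝 z] g) : cHess f z = cHess g z := by
  ext j k
  rw [cHess_apply, cHess_apply]
  refine dz_congr (dzb_congr_ev ?_)
  filter_upwards [h] with y hy; rw [hy]

lemma cHess_const_mul {f : Cm n → ℝ} (c : ℝ) (hf : ContDiffAt ℝ 2 f z) :
    cHess (fun y => c * f y) z = (c : ℂ) • cHess f z := by
  have hF : ContDiffAt ℝ 2 (fun y => (f y : ℂ)) z := ofReal_contDiffAt hf
  ext j k
  rw [Matrix.smul_apply, cHess_apply, cHess_apply]
  have h1 : dzb k (fun y => ((c * f y : ℝ) : ℂ)) =ᶠ[𝓝 z]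
      fun y => (c : ℂ) * dzb k (fun y => (f y : ℂ)) y := by
    filter_upwards [hF.eventually (by simp)] with y hy
    rw [← dzb_const_mul _ (hy.differentiableAt (by norm_num))]
    simp
  rw [dz_congr h1, dz_const_mul _ (differentiableAt_dzb hF), smul_eq_mul]

lemma cHess_sub {f g : Cm n → ℝ} (hf : ContDiffAt ℝ 2 f z) (hg : ContDiffAt ℝ 2 g z) :
    cHess (fun y => f y - g y) z = cHess f z - cHess g z := by
  have h1 : cHess (fun y => (-1) * g y) z = ((-1 : ℝ) : ℂ) • cHess g z := cHess_const_mul (-1) hg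
  have h2 := cHess_add hf (contDiffAt_const.mul hg : ContDiffAt ℝ 2 (fun y => (-1 : ℝ) * g y) z)
  have h3 : (fun y => f y - g y) = fun y => f y + (-1) * g y := by funext y; ring
  rw [h3, h2, h1]
  simp [sub_eq_add_neg]

/-- the complex Hessian of a real `C²` function is Hermitian -/
lemma cHess_isHermitian {f : Cm n → ℝ} (hf : ContDiffAt ℝ 2 f z) : (cHess f z).IsHermitian := by
  have hF : ContDiffAt ℝ 2 (fun y => (f y : ℂ)) z := ofReal_contDiffAt hf
  ext j k
  rw [Matrix.conjTranspose_apply, cHess_apply, cHess_apply]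
  have h1 : dzb j (fun y => (f y : ℂ)) =ᶠ[𝓝 z] fun y => cj (dz j (fun y => (f y : ℂ)) y) := by
    filter_upwards [hF.eventually (by simp)] with y hy
    rw [← dzb_cj (hy.differentiableAt (by norm_num))]
    simp [cj]
  rw [dz_congr h1, dz_cj (differentiableAt_dz hF)]
  show cj (cj (dzb k (dz j fun y => (f y : ℂ)) z)) = _
  rw [dz_dzb_comm hF]
  simp [cj]

/-- `log |F|²` is pluriharmonic for `F` holomorphic without zeros. -/
lemma cHess_log_norm_sq {F : Cm n → ℂ} (h : ContDiffAt ℂ ω F z) (h0 : F z ≠ 0) :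
    cHess (fun y => Real.log (‖F y‖ ^ 2)) z = 0 := by
  have hev : ∀ᶠ y in 𝓝 z, ContDiffAt ℂ ω F y := h.eventually (by simp)
  have hev0 : ∀ᶠ y in 𝓝 z, F y ≠ 0 := h.continuousAt.eventually_ne h0
  ext j k
  rw [cHess_apply, Matrix.zero_apply]
  -- `dzb k log|F|² = cj (dz k F) / cj F`
  have hreal : ∀ {y : Cm n}, ContDiffAt ℂ ω F y → F y ≠ 0 →
      dzb k (fun y => ((Real.log (‖F y‖ ^ 2) : ℝ) : ℂ)) y = cj (dz k F y / F y) := by
    intro y hy hy0
    have hFr : DifferentiableAt ℝ F y := (hy.differentiableAt (by simp)).restrictScalars ℝ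
    have hns : HasFDerivAt (fun y => ‖F y‖ ^ 2) (2 • (innerSL ℝ (F y)).comp (fderiv ℝ F y)) y :=
      hFr.hasFDerivAt.norm_sq
    have hlog := hns.log (by positivity)
    have hc : HasFDerivAt (fun y => ((Real.log (‖F y‖ ^ 2) : ℝ) : ℂ))
        (Complex.ofRealCLM.comp ((‖F y‖ ^ 2)⁻¹ • (2 • (innerSL ℝ (F y)).comp (fderiv ℝ F y)))) y :=
      Complex.ofRealCLM.hasFDerivAt.comp y hlog
    have hD : ∀ v, fderiv ℝ (fun y => ((Real.log (‖F y‖ ^ 2) : ℝ) : ℂ)) y v =
        fderiv ℝ F y v / F y + cj (fderiv ℝ F y v / F y) := by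
      intro v
      rw [hc.fderiv]
      simp only [ContinuousLinearMap.comp_apply, smul_apply, innerSL_apply_apply,
        Complex.ofRealCLM_apply, smul_eq_mul, Complex.inner]
      have hne : (F y) ≠ 0 := hy0
      have e1 : fderiv ℝ F y v / F y + cj (fderiv ℝ F y v / F y) =
          ((2 * (fderiv ℝ F y v / F y).re : ℝ) : ℂ) := by
        rw [show cj (fderiv ℝ F y v / F y) = (starRingEnd ℂ) (fderiv ℝ F y v / F y) from rfl,
          Complex.add_conj]
      rw [e1]
      congr 1
      have e2 : fderiv ℝ F y v / F y = (((‖F y‖ ^ 2)⁻¹ : ℝ) : ℂ) * (fderiv ℝ F y v * (starRingEnd ℂ) (F y)) := by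
        have : (F y) * (starRingEnd ℂ) (F y) = ((‖F y‖ ^ 2 : ℝ) : ℂ) := by
          rw [Complex.mul_conj, Complex.normSq_eq_norm_sq]
        have hn : ((‖F y‖ ^ 2 : ℝ) : ℂ) ≠ 0 := by
          rw [← this]; exact mul_ne_zero hne (by simpa using hne)
        rw [Complex.ofReal_inv, ← this]
        rw [← this] at hn
        have h9 : (starRingEnd ℂ) (F y) ≠ 0 := by simpa using hne
        field_simp
      rw [e2, Complex.re_ofReal_mul]
      simp only [nsmul_eq_mul, Nat.cast_ofNat]
      ring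
    have hI : ∀ v, fderiv ℝ F y (Complex.I • v) = Complex.I * fderiv ℝ F y v := by
      intro v
      rw [fderivR_of_holo (hy.differentiableAt (by simp)),
        fderivR_of_holo (hy.differentiableAt (by simp)), map_smul, smul_eq_mul]
    have hs : (Pi.single k Complex.I : Cm n) = Complex.I • Pi.single k 1 := by
      rw [← Pi.single_smul]; simp
    unfold dzb
    rw [hD, hD, hs, hI]
    have hdz : dz k F y = fderiv ℝ F y (Pi.single k 1) := by
      rw [dz_of_holo (hy.differentiableAt (by simp)),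
        fderivR_of_holo (hy.differentiableAt (by simp))]
    rw [hdz]
    set a := fderiv ℝ F y (Pi.single k 1)
    have e3 : cj (Complex.I * a / F y) = -Complex.I * cj (a / F y) := by
      simp only [cj, map_div₀, map_mul, Complex.conj_I]; ring
    rw [e3]
    have h5 : Complex.I * Complex.I = -1 := Complex.I_mul_I
    linear_combination (a / F y / 2 - cj (a / F y) / 2) * h5
  have h1 : dzb k (fun y => ((Real.log (‖F y‖ ^ 2) : ℝ) : ℂ)) =ᶠ[𝓝 z]
      fun y => cj (dz k F y / F y) := by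
    filter_upwards [hev, hev0] with y hy hy0 using hreal hy hy0
  rw [dz_congr h1]
  have h2 : DifferentiableAt ℂ (fun y => dz k F y / F y) z := by
    have h3 : ContDiffAt ℂ ω (fun y => dz k F y) z := by
      have h4 : ContDiffAt ℂ ω (fun y => fderiv ℂ F y (Pi.single k 1)) z :=
        (h.fderiv_right (m := ω) (by exact le_top)).clm_apply contDiffAt_const
      refine h4.congr_of_eventuallyEq ?_
      filter_upwards [hev] with y hy
      exact dz_of_holo (hy.differentiableAt (by simp))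
    exact (h3.div h h0).differentiableAt (by simp)
  rw [dz_cj (h2.restrictScalars ℝ), dzb_of_holo h2]
  simp [cj]

end Vale.Agent.P272.K
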