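import Vale.Agent.P272.K.Inv.Compact
import Vale.Agent.P272.K.Iface

/-! Smoothness of determinants, inverses, curvature; the global constants. -/

open scoped Manifold ContDiff ComplexOrder Topology
open Complex Set Filter

set_option linter.all false

noncomputable section

namespace Vale.Agent.P272.K

variable {n : ℕ}

lemma contDiffAt_det {m : WithTop ℕ∞} {M : Cm n → Matrix (Fin n) (Fin n) ℂ} {z : Cm n}
    (h : ∀ i j, ContDiffAt ℝ m (fun y => M y i j) z) :
    ContDiffAt ℝ m (fun y => (M y).det) z := by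
  simp only [Matrix.det_apply]
  refine ContDiffAt.sum fun σ _ => ?_
  refine ContDiffAt.const_smul _ ?_
  exact contDiffAt_prod fun i _ => h _ _

lemma contDiffAt_adj {m : WithTop ℕ∞} {M : Cm n → Matrix (Fin n) (Fin n) ℂ} {z : Cm n}
    (h : ∀ i j, ContDiffAt ℝ m (fun y => M y i j) z) (i j : Fin n) :
    ContDiffAt ℝ m (fun y => (M y).adjugate i j) z := by
  simp only [Matrix.adjugate_apply]
  refine contDiffAt_det fun a b => ?_
  by_cases hab : a = j
  · subst hab
    simp only [Matrix.updateRow_self]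
    exact contDiffAt_const
  · simp only [Matrix.updateRow_ne hab]
    exact h a b

lemma contDiffAt_inv {m : WithTop ℕ∞} {M : Cm n → Matrix (Fin n) (Fin n) ℂ} {z : Cm n}
    (h : ∀ i j, ContDiffAt ℝ m (fun y => M y i j) z) (h0 : (M z).det ≠ 0) (i j : Fin n) :
    ContDiffAt ℝ m (fun y => (M y)⁻¹ i j) z := by
  have h1 : (fun y => (M y)⁻¹ i j) = fun y => ((M y).det)⁻¹ * (M y).adjugate i j := by
    funext y
    rw [Matrix.inv_def, Ring.inverse_eq_inv']
    rfl
  rw [h1]
  exact ((contDiffAt_det h).inv h0).mul (contDiffAt_adj h i j)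

lemma contDiffAt_cHess {m r : WithTop ℕ∞} {f : Cm n → ℝ} {z : Cm n} (hf : ContDiffAt ℝ r f z)
    (h : m + 1 + 1 ≤ r) (i j : Fin n) : ContDiffAt ℝ m (fun y => cHess f y i j) z := by
  show ContDiffAt ℝ m (dz i (dzb j fun y => (f y : ℂ))) z
  exact contDiffAt_dz (contDiffAt_dzb (m := m + 1) (ofReal_contDiffAt hf) h) le_rfl

section
variable {X : Type*} [TopologicalSpace X] [ChartedSpace (Cm n) X]
  {h w : Chart n X → Cm n → Matrix (Fin n) (Fin n) ℂ} {e : Chart n X}

lemma smooth_of_target {f : Chart n X → Cm n → ℂ} (hf : ∀ e x, At e x → ContDiffAt ℝ ∞ (f e) (e x))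
    (he : e ∈ atlas (Cm n) X) {z : Cm n} (hz : z ∈ e.target) : ContDiffAt ℝ ∞ (f e) z := by
  have := hf e (e.symm z) (At.of_target he hz)
  rwa [e.right_inv hz] at this

lemma IsHermitian.smooth_target (hh : IsHermitian h) (he : e ∈ atlas (Cm n) X) {z : Cm n}
    (hz : z ∈ e.target) (i j : Fin n) : ContDiffAt ℝ ∞ (fun y => h e y i j) z := by
  have := hh.smooth e (e.symm z) (At.of_target he hz) i j
  rwa [e.right_inv hz] at this

lemma IsHermitian.posDef_target (hh : IsHermitian h) (he : e ∈ atlas (Cm n) X) {z : Cm n}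
    (hz : z ∈ e.target) : (h e z).PosDef := by
  have := hh.posDef e (e.symm z) (At.of_target he hz)
  rwa [e.right_inv hz] at this

lemma contDiffAt_curv {M : Cm n → Matrix (Fin n) (Fin n) ℂ} {z : Cm n}
    (hM : ∀ i j, ContDiffAt ℝ ∞ (fun y => M y i j) z) (h0 : (M z).det ≠ 0) (i j k l : Fin n) :
    ContDiffAt ℝ ∞ (fun y => curv M y i j k l) z := by
  have hinf : (∞ : WithTop ℕ∞) + 1 ≤ ∞ := le_of_eq rfl
  unfold curv
  refine ContDiffAt.add (ContDiffAt.neg ?_) (ContDiffAt.sum fun q _ => ContDiffAt.sum fun p _ => ?_)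
  · exact contDiffAt_dz (contDiffAt_dzb (hM k l) hinf) hinf
  · exact ((contDiffAt_dz (hM k q) hinf).mul (contDiffAt_inv hM h0 q p)).mul
      (contDiffAt_dzb (hM p l) hinf)

lemma IsHermitian.det_ne_zero_target (hh : IsHermitian h) (he : e ∈ atlas (Cm n) X) {z : Cm n}
    (hz : z ∈ e.target) : (h e z).det ≠ 0 :=
  (hh.posDef_target he hz).det_pos.ne'

lemma IsHermitian.continuousOn_curv (hh : IsHermitian h) (he : e ∈ atlas (Cm n) X)
    (i j k l : Fin n) : ContinuousOn (fun z => curv (h e) z i j k l) e.target := fun z hz =>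
  (contDiffAt_curv (fun i j => hh.smooth_target he hz i j)
    (hh.det_ne_zero_target he hz) i j k l).continuousAt.continuousWithinAt

lemma IsHermitian.continuousOn_entry (hh : IsHermitian h) (he : e ∈ atlas (Cm n) X)
    (i j : Fin n) : ContinuousOn (fun z => h e z i j) e.target := fun z hz =>
  (hh.smooth_target he hz i j).continuousAt.continuousWithinAt

lemma negHSC_quart (hneg : NegHSC h) (he : e ∈ atlas (Cm n) X) {z : Cm n}
    (hz : z ∈ e.target) {ξ : Cm n} (hξ : ξ ≠ 0) : (quart (curv (h e) z) ξ).re < 0 := by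
  have := hneg e (e.symm z) (At.of_target he hz) ξ hξ
  rwa [e.right_inv hz] at this

/-- the constant `k` with `HSC ≤ -k` on a finite family of compact subsets of charts -/
theorem exists_HSC_bound (hh : IsHermitian h) (hneg : NegHSC h) {N : ℕ} (c : Fin N → Chart n X)
    (hc : ∀ a, c a ∈ atlas (Cm n) X) (K : Fin N → Set (Cm n)) (hK : ∀ a, IsCompact (K a))
    (hKc : ∀ a, K a ⊆ (c a).target) :
    ∃ k : ℝ, 0 < k ∧ ∀ a, ∀ z ∈ K a, ∀ ξ : Cm n,
      (quart (curv (h (c a)) z) ξ).re ≤ -k * (quad (h (c a) z) ξ).re ^ 2 := by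
  have h1 : ∀ a, ∃ k : ℝ, 0 < k ∧ ∀ z ∈ K a, ∀ ξ : Cm n,
      (quart (curv (h (c a)) z) ξ).re ≤ -k * (quad (h (c a) z) ξ).re ^ 2 := fun a =>
    exists_quartic_bound (hK a) (fun z => curv (h (c a)) z) (fun z => h (c a) z)
      (fun i j k l => (hh.continuousOn_curv (hc a) i j k l).mono (hKc a))
      (fun i j => (hh.continuousOn_entry (hc a) i j).mono (hKc a))
      (fun z hz ξ hξ => negHSC_quart hneg (hc a) (hKc a hz) hξ)
  choose k hk hk' using h1
  rcases isEmpty_or_nonempty (Fin N) with hN | hN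
  · exact ⟨1, one_pos, fun a => (hN.false a).elim⟩
  · obtain ⟨a0, ha0⟩ := Finite.exists_min k
    refine ⟨k a0, hk a0, fun a z hz ξ => (hk' a z hz ξ).trans ?_⟩
    have := mul_le_mul_of_nonneg_right (ha0 a) (sq_nonneg (quad (h (c a) z) ξ).re)
    linarith

end

section
variable {X : Type*} [TopologicalSpace X] [ChartedSpace (Cm n) X]
  {h w : Chart n X → Cm n → Matrix (Fin n) (Fin n) ℂ} {e e' : Chart n X} {x : X}

lemma posSemidef_form {M : Matrix (Fin n) (Fin n) ℂ} (hM : M.PosSemidef)
    (J : Matrix (Fin n) (Fin n) ℂ) : (J.transpose * M * J.map (starRingEnd ℂ)).PosSemidef := by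
  have := hM.conjTranspose_mul_mul_same (J.map (starRingEnd ℂ))
  have h2 : (J.map (starRingEnd ℂ)).conjTranspose = J.transpose := by
    ext i j; simp [Matrix.conjTranspose_apply, Matrix.map_apply]
  rwa [h2] at this

lemma posDef_form {M : Matrix (Fin n) (Fin n) ℂ} (hM : M.PosDef)
    {J : Matrix (Fin n) (Fin n) ℂ} (hJ : IsUnit J.det) :
    (J.transpose * M * J.map (starRingEnd ℂ)).PosDef := by
  have hinj : Function.Injective (J.map (starRingEnd ℂ)).mulVec :=
    Matrix.mulVec_injective_iff_isUnit.2 ((Matrix.isUnit_iff_isUnit_det _).2 (isUnit_conj hJ))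
  have := hM.conjTranspose_mul_mul_same hinj
  have h2 : (J.map (starRingEnd ℂ)).conjTranspose = J.transpose := by
    ext i j; simp [Matrix.conjTranspose_apply, Matrix.map_apply]
  rwa [h2] at this

/-- the constant `C` with `w ≤ C h` -/
theorem exists_comparison [CompactSpace X] [IsManifold 𝓘(ℂ, Cm n) ω X] (hh : IsHermitian h)
    (hw : IsHermitian w) :
    ∃ C : ℝ, 0 < C ∧ ∀ e x, At e x → ((C : ℂ) • h e (e x) - w e (e x)).PosSemidef := by
  have key : ∃ C : ℝ, 0 < C ∧ ∀ x ∈ (univ : Set X), ∀ e, At e x →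
      ((C : ℂ) • h e (e x) - w e (e x)).PosSemidef := by
    have hC : ∀ {C C' : ℝ} {M N : Matrix (Fin n) (Fin n) ℂ}, M.PosDef → C ≤ C' →
        ((C : ℂ) • M - N).PosSemidef → ((C' : ℂ) • M - N).PosSemidef := by
      intro C C' M N hM hCC h
      have h1 : ((C' - C : ℝ) : ℂ) • M = (C' - C : ℝ) • M := by
        ext i j; simp
      have h2 : (((C' - C : ℝ) : ℂ) • M).PosSemidef := by
        rw [h1]; exact hM.posSemidef.smul (sub_nonneg.2 hCC)
      have h3 : (C' : ℂ) • M - N = ((C : ℂ) • M - N) + ((C' - C : ℝ) : ℂ) • M := by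
        push_cast
        rw [sub_smul]; abel
      rw [h3]
      exact h.add h2
    refine isCompact_univ.induction_on (p := fun s => ∃ C : ℝ, 0 < C ∧ ∀ x ∈ s, ∀ e, At e x →
      ((C : ℂ) • h e (e x) - w e (e x)).PosSemidef) ?_ ?_ ?_ ?_
    · exact ⟨1, one_pos, fun x hx => hx.elim⟩
    · rintro s t hst ⟨C, hC0, hCt⟩
      exact ⟨C, hC0, fun x hx => hCt x (hst hx)⟩
    · rintro s t ⟨C, hC0, hCs⟩ ⟨C', hC0', hCt⟩
      refine ⟨max C C', lt_max_of_lt_left hC0, ?_⟩
      rintro x (hx | hx) e hex
      · exact hC (hh.posDef e x hex) (le_max_left _ _) (hCs x hx e hex)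
      · exact hC (hh.posDef e x hex) (le_max_right _ _) (hCt x hx e hex)
    · intro x _
      set c := chartAt (Cm n) x with hc
      have hAt : At c x := ⟨chart_mem_atlas _ x, mem_chart_source _ x⟩
      obtain ⟨r, hr, hball⟩ := Metric.nhds_basis_closedBall.mem_iff.1
        (c.open_target.mem_nhds hAt.mem_target)
      obtain ⟨C, hC0, hCK⟩ := exists_quad_lower (isCompact_closedBall (c x) r)
        (fun z => h c z) (fun z => w c z)
        (fun i j => (hh.continuousOn_entry hAt.1 i j).mono hball)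
        (fun i j => (hw.continuousOn_entry hAt.1 i j).mono hball)
        (fun z hz => hh.posDef_target hAt.1 (hball hz))
      refine ⟨c.source ∩ c ⁻¹' Metric.closedBall (c x) r, ?_, C, hC0, ?_⟩
      · refine mem_nhdsWithin_of_mem_nhds (inter_mem (c.open_source.mem_nhds hAt.2) ?_)
        exact (c.continuousAt hAt.2).preimage_mem_nhds (Metric.closedBall_mem_nhds _ hr)
      · rintro y ⟨hy1, hy2⟩ e hey
        have hcy : At c y := ⟨hAt.1, hy1⟩
        have h1 : ((C : ℂ) • h c (c y) - w c (c y)).PosSemidef := by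
          refine posSemidef_of_quad ?_ fun ξ => ?_
          · refine Matrix.IsHermitian.sub ?_ (hw.posDef c y hcy).isHermitian
            have := (hh.posDef c y hcy).isHermitian
            ext i j
            simp only [Matrix.conjTranspose_apply, Matrix.smul_apply, smul_eq_mul, star_mul',
              RCLike.star_def, Complex.conj_ofReal]
            have h2 := this.apply i j
            simp only [RCLike.star_def] at h2
            rw [h2]
          · have h2 := hCK (c y) hy2 ξ
            have h3 : quad ((C : ℂ) • h c (c y) - w c (c y)) ξ =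
                (C : ℂ) * quad (h c (c y)) ξ - quad (w c (c y)) ξ := by
              unfold quad
              rw [Finset.mul_sum, ← Finset.sum_sub_distrib]
              refine Finset.sum_congr rfl fun i _ => ?_
              rw [Finset.mul_sum, ← Finset.sum_sub_distrib]
              refine Finset.sum_congr rfl fun j _ => ?_
              simp only [Matrix.sub_apply, Matrix.smul_apply, smul_eq_mul]
              ring
            rw [h3, Complex.sub_re, Complex.re_ofReal_mul]
            linarith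
        have h2 : ((C : ℂ) • h e (e y) - w e (e y)) =
            (jacM e c y).transpose * ((C : ℂ) • h c (c y) - w c (c y)) *
              (jacM e c y).map (starRingEnd ℂ) := by
          rw [hh.change e c y hey hcy, hw.change e c y hey hcy]
          rw [Matrix.mul_sub, Matrix.sub_mul, Matrix.mul_smul, Matrix.smul_mul]
        rw [h2]
        exact posSemidef_form h1 _
  obtain ⟨C, hC0, h⟩ := key
  exact ⟨C, hC0, fun e x hx => h x (mem_univ x) e hx⟩

end

end Vale.Agent.P272.K
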