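import Vale.Agent.P272.K.Inv.Chart
import Mathlib.Topology.Instances.Matrix
import Mathlib.Analysis.Matrix.PosDef

/-! Compactness constants. -/

open scoped Manifold ContDiff ComplexOrder Topology
open Complex

set_option linter.all false

noncomputable section

namespace Vale.Agent.P272.K

variable {n : ℕ}

/-- `h(ξ, ξ̄) = Σ h_{i j̄} ξ_i ξ̄_j` -/
def quad (M : Matrix (Fin n) (Fin n) ℂ) (ξ : Cm n) : ℂ := ∑ i, ∑ j, M i j * (ξ i * cj (ξ j))

/-- the quartic form `Σ R_{i j̄ k l̄} ξ_i ξ̄_j ξ_k ξ̄_l` -/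
def quart (R : Fin n → Fin n → Fin n → Fin n → ℂ) (ξ : Cm n) : ℂ :=
  ∑ i, ∑ j, ∑ k, ∑ l, R i j k l * (ξ i * cj (ξ j) * ξ k * cj (ξ l))

lemma quad_eq (M : Matrix (Fin n) (Fin n) ℂ) (ξ : Cm n) :
    quad M ξ = star (fun i => cj (ξ i)) ⬝ᵥ (M.mulVec fun i => cj (ξ i)) := by
  unfold quad dotProduct Matrix.mulVec dotProduct
  refine Finset.sum_congr rfl fun i _ => ?_
  rw [Finset.mul_sum]
  refine Finset.sum_congr rfl fun j _ => ?_
  simp only [Pi.star_apply, cj, RCLike.star_def, Complex.conj_conj]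
  ring

lemma quad_pos {M : Matrix (Fin n) (Fin n) ℂ} (hM : M.PosDef) {ξ : Cm n} (hξ : ξ ≠ 0) :
    0 < (quad M ξ).re := by
  rw [quad_eq]
  have h : (fun i => cj (ξ i)) ≠ 0 := by
    intro h
    apply hξ
    funext i
    have := congrFun h i
    simpa [cj] using this
  exact hM.re_dotProduct_pos h

lemma quad_im {M : Matrix (Fin n) (Fin n) ℂ} (hM : M.IsHermitian) (ξ : Cm n) :
    (quad M ξ).im = 0 := by
  rw [quad_eq]
  exact hM.im_star_dotProduct_mulVec_self _

lemma posDef_of_quad {M : Matrix (Fin n) (Fin n) ℂ} (hM : M.IsHermitian)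
    (h : ∀ ξ : Cm n, ξ ≠ 0 → 0 < (quad M ξ).re) : M.PosDef := by
  refine Matrix.PosDef.of_dotProduct_mulVec_pos hM fun x hx => ?_
  have h1 := h (fun i => cj (x i)) (by
    intro h0; apply hx; funext i
    have := congrFun h0 i
    simpa [cj] using this)
  rw [quad_eq] at h1
  have h2 : (fun i => cj (cj (x i))) = x := by funext i; simp [cj]
  simp only [h2] at h1
  have h3 := hM.im_star_dotProduct_mulVec_self x
  rw [Complex.lt_def]
  exact ⟨h1, h3.symm⟩

lemma posSemidef_of_quad {M : Matrix (Fin n) (Fin n) ℂ} (hM : M.IsHermitian)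
    (h : ∀ ξ : Cm n, 0 ≤ (quad M ξ).re) : M.PosSemidef := by
  refine Matrix.PosSemidef.of_dotProduct_mulVec_nonneg hM fun x => ?_
  have h1 := h (fun i => cj (x i))
  rw [quad_eq] at h1
  have h2 : (fun i => cj (cj (x i))) = x := by funext i; simp [cj]
  simp only [h2] at h1
  have h3 := hM.im_star_dotProduct_mulVec_self x
  rw [Complex.le_def]
  exact ⟨h1, h3.symm⟩

lemma quad_nonneg {M : Matrix (Fin n) (Fin n) ℂ} (hM : M.PosSemidef) (ξ : Cm n) :
    0 ≤ (quad M ξ).re := by
  rw [quad_eq]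
  exact hM.re_dotProduct_nonneg _

lemma quad_smul (M : Matrix (Fin n) (Fin n) ℂ) (r : ℝ) (ξ : Cm n) :
    quad M (fun i => (r : ℂ) * ξ i) = (r ^ 2 : ℝ) * quad M ξ := by
  unfold quad
  rw [Finset.mul_sum]
  refine Finset.sum_congr rfl fun i _ => ?_
  rw [Finset.mul_sum]
  refine Finset.sum_congr rfl fun j _ => ?_
  simp only [cj, map_mul, Complex.conj_ofReal]
  push_cast; ring

lemma quart_smul (R : Fin n → Fin n → Fin n → Fin n → ℂ) (r : ℝ) (ξ : Cm n) :
    quart R (fun i => (r : ℂ) * ξ i) = (r ^ 4 : ℝ) * quart R ξ := by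
  unfold quart
  rw [Finset.mul_sum]
  refine Finset.sum_congr rfl fun i _ => ?_
  rw [Finset.mul_sum]
  refine Finset.sum_congr rfl fun j _ => ?_
  rw [Finset.mul_sum]
  refine Finset.sum_congr rfl fun k _ => ?_
  rw [Finset.mul_sum]
  refine Finset.sum_congr rfl fun l _ => ?_
  simp only [cj, map_mul, Complex.conj_ofReal]
  push_cast; ring

lemma unit_decomp {ξ : Cm n} (hξ : ξ ≠ 0) :
    ∃ η : Cm n, η ∈ Metric.sphere (0 : Cm n) 1 ∧ ∃ r : ℝ, 0 < r ∧ ξ = fun i => (r : ℂ) * η i := by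
  have hr : 0 < ‖ξ‖ := norm_pos_iff.2 hξ
  refine ⟨(‖ξ‖⁻¹ : ℝ) • ξ, ?_, ‖ξ‖, hr, ?_⟩
  · rw [mem_sphere_zero_iff_norm, norm_smul, norm_inv, norm_norm, inv_mul_cancel₀ hr.ne']
  · funext i
    simp only [Pi.smul_apply, Complex.real_smul]
    rw [← mul_assoc, ← Complex.ofReal_mul, mul_inv_cancel₀ hr.ne']; simp

/-- Compactness: a continuous quartic form that is negative on nonzero vectors is bounded by
`-k` times the square of a continuous quadratic form. -/
lemma exists_quartic_bound {K : Set (Cm n)} (hK : IsCompact K)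
    (R : Cm n → Fin n → Fin n → Fin n → Fin n → ℂ) (M : Cm n → Matrix (Fin n) (Fin n) ℂ)
    (hR : ∀ i j k l, ContinuousOn (fun z => R z i j k l) K)
    (hM : ∀ i j, ContinuousOn (fun z => M z i j) K)
    (hneg : ∀ z ∈ K, ∀ ξ : Cm n, ξ ≠ 0 → (quart (R z) ξ).re < 0) :
    ∃ k : ℝ, 0 < k ∧ ∀ z ∈ K, ∀ ξ : Cm n, (quart (R z) ξ).re ≤ -k * (quad (M z) ξ).re ^ 2 := by
  classical
  set S : Set (Cm n) := Metric.sphere 0 1 with hS
  have hScomp : IsCompact S := isCompact_sphere 0 1
  have hKS : IsCompact (K ×ˢ S) := hK.prod hScomp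
  have hcj : Continuous (fun z : ℂ => cj z) := Complex.continuous_conj
  have hξc : ∀ i : Fin n, ContinuousOn (fun p : Cm n × Cm n => p.2 i) (K ×ˢ S) := fun i =>
    ((continuous_apply i).comp continuous_snd).continuousOn
  have hΦ : ContinuousOn (fun p : Cm n × Cm n => (quart (R p.1) p.2).re) (K ×ˢ S) := by
    refine Complex.continuous_re.comp_continuousOn ?_
    unfold quart
    refine continuousOn_finset_sum _ fun i _ => continuousOn_finset_sum _ fun j _ =>
      continuousOn_finset_sum _ fun k _ => continuousOn_finset_sum _ fun l _ => ?_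
    refine ((hR i j k l).comp continuous_fst.continuousOn fun p hp => hp.1).mul ?_
    exact (((hξc i).mul (hcj.comp_continuousOn (hξc j))).mul (hξc k)).mul
      (hcj.comp_continuousOn (hξc l))
  have hQ : ContinuousOn (fun p : Cm n × Cm n => (quad (M p.1) p.2).re ^ 2) (K ×ˢ S) := by
    refine (Complex.continuous_re.comp_continuousOn ?_).pow 2
    unfold quad
    refine continuousOn_finset_sum _ fun i _ => continuousOn_finset_sum _ fun j _ => ?_
    exact ((hM i j).comp continuous_fst.continuousOn fun p hp => hp.1).mul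
      ((hξc i).mul (hcj.comp_continuousOn (hξc j)))
  by_cases hne : (K ×ˢ S).Nonempty
  · obtain ⟨p0, hp0, hmax⟩ := hKS.exists_isMaxOn hne hΦ
    obtain ⟨q0, hq0, hmaxQ⟩ := hKS.exists_isMaxOn hne hQ
    have hm : (quart (R p0.1) p0.2).re < 0 := by
      refine hneg p0.1 hp0.1 p0.2 ?_
      intro h0
      have : ‖p0.2‖ = 1 := by simpa [hS] using hp0.2
      rw [h0] at this; simp at this
    set m := -(quart (R p0.1) p0.2).re with hmdef
    set B := (quad (M q0.1) q0.2).re ^ 2 with hB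
    have hmpos : 0 < m := by rw [hmdef]; linarith
    have hBnn : 0 ≤ B := sq_nonneg _
    refine ⟨m / (B + 1), by positivity, fun z hz ξ => ?_⟩
    by_cases hξ : ξ = 0
    · subst hξ
      have h1 : quart (R z) (0 : Cm n) = 0 := by simp [quart]
      have h2 : quad (M z) (0 : Cm n) = 0 := by simp [quad]
      rw [h1, h2]; simp
    · obtain ⟨η, hηS, r, hr, rfl⟩ := unit_decomp hξ
      have h1 : (quart (R z) η).re ≤ -m := by
        have := isMaxOn_iff.1 hmax (z, η) ⟨hz, hηS⟩
        rw [hmdef]; linarith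
      have h2 : (quad (M z) η).re ^ 2 ≤ B := by
        have := isMaxOn_iff.1 hmaxQ (z, η) ⟨hz, hηS⟩
        rw [hB]; exact this
      have h3 : (quart (R z) η).re ≤ -(m / (B + 1)) * (quad (M z) η).re ^ 2 := by
        have h4 : m / (B + 1) * (quad (M z) η).re ^ 2 ≤ m := by
          rw [div_mul_eq_mul_div, div_le_iff₀ (by positivity)]
          nlinarith
        linarith
      rw [quart_smul, quad_smul, Complex.re_ofReal_mul, Complex.re_ofReal_mul]
      have h5 : 0 ≤ r ^ 4 := by positivity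
      calc r ^ 4 * (quart (R z) η).re ≤ r ^ 4 * (-(m / (B + 1)) * (quad (M z) η).re ^ 2) :=
            mul_le_mul_of_nonneg_left h3 h5
        _ = -(m / (B + 1)) * (r ^ 2 * (quad (M z) η).re) ^ 2 := by ring
  · refine ⟨1, one_pos, fun z hz ξ => ?_⟩
    by_cases hξ : ξ = 0
    · subst hξ
      have h1 : quart (R z) (0 : Cm n) = 0 := by simp [quart]
      have h2 : quad (M z) (0 : Cm n) = 0 := by simp [quad]
      rw [h1, h2]; simp
    · exfalso
      apply hne
      have hr : 0 < ‖ξ‖ := norm_pos_iff.2 hξ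
      refine ⟨(z, (‖ξ‖⁻¹ : ℝ) • ξ), hz, ?_⟩
      rw [hS, mem_sphere_zero_iff_norm, norm_smul, norm_inv, norm_norm, inv_mul_cancel₀ hr.ne']

/-- Compactness: on a compact set a continuous positive definite matrix dominates `c` times the
standard one. -/
lemma exists_quad_lower {K : Set (Cm n)} (hK : IsCompact K) (M : Cm n → Matrix (Fin n) (Fin n) ℂ)
    (N : Cm n → Matrix (Fin n) (Fin n) ℂ)
    (hM : ∀ i j, ContinuousOn (fun z => M z i j) K) (hN : ∀ i j, ContinuousOn (fun z => N z i j) K)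
    (hpos : ∀ z ∈ K, (M z).PosDef) :
    ∃ C : ℝ, 0 < C ∧ ∀ z ∈ K, ∀ ξ : Cm n, (quad (N z) ξ).re ≤ C * (quad (M z) ξ).re := by
  classical
  set S : Set (Cm n) := Metric.sphere 0 1 with hS
  have hScomp : IsCompact S := isCompact_sphere 0 1
  have hKS : IsCompact (K ×ˢ S) := hK.prod hScomp
  have hcj : Continuous (fun z : ℂ => cj z) := Complex.continuous_conj
  have hξc : ∀ i : Fin n, ContinuousOn (fun p : Cm n × Cm n => p.2 i) (K ×ˢ S) := fun i =>
    ((continuous_apply i).comp continuous_snd).continuousOn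
  have hQ : ∀ M : Cm n → Matrix (Fin n) (Fin n) ℂ, (∀ i j, ContinuousOn (fun z => M z i j) K) →
      ContinuousOn (fun p : Cm n × Cm n => (quad (M p.1) p.2).re) (K ×ˢ S) := by
    intro M hM
    refine (Complex.continuous_re.comp_continuousOn ?_)
    unfold quad
    refine continuousOn_finset_sum _ fun i _ => continuousOn_finset_sum _ fun j _ => ?_
    exact ((hM i j).comp continuous_fst.continuousOn fun p hp => hp.1).mul
      ((hξc i).mul (hcj.comp_continuousOn (hξc j)))
  by_cases hne : (K ×ˢ S).Nonempty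
  · obtain ⟨p0, hp0, hmin⟩ := hKS.exists_isMinOn hne (hQ M hM)
    obtain ⟨q0, hq0, hmaxQ⟩ := hKS.exists_isMaxOn hne (hQ N hN)
    have hm : 0 < (quad (M p0.1) p0.2).re := by
      refine quad_pos (hpos p0.1 hp0.1) ?_
      intro h0
      have : ‖p0.2‖ = 1 := by simpa [hS] using hp0.2
      rw [h0] at this; simp at this
    set m := (quad (M p0.1) p0.2).re with hmdef
    set B := (quad (N q0.1) q0.2).re with hB
    refine ⟨(|B| + 1) / m, by positivity, fun z hz ξ => ?_⟩
    by_cases hξ : ξ = 0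
    · subst hξ
      have h2 : ∀ M : Matrix (Fin n) (Fin n) ℂ, quad M (0 : Cm n) = 0 := fun M => by simp [quad]
      rw [h2, h2]; simp
    · obtain ⟨η, hηS, r, hr, rfl⟩ := unit_decomp hξ
      have h1 : m ≤ (quad (M z) η).re := by
        have := isMinOn_iff.1 hmin (z, η) ⟨hz, hηS⟩
        rw [hmdef]; exact this
      have h2 : (quad (N z) η).re ≤ B := by
        have := isMaxOn_iff.1 hmaxQ (z, η) ⟨hz, hηS⟩
        rw [hB]; exact this
      have h3 : (quad (N z) η).re ≤ (|B| + 1) / m * (quad (M z) η).re := by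
        have h4 : |B| + 1 ≤ (|B| + 1) / m * (quad (M z) η).re := by
          rw [div_mul_eq_mul_div, le_div_iff₀ hm]
          nlinarith [abs_nonneg B]
        linarith [le_abs_self B]
      rw [quad_smul, quad_smul, Complex.re_ofReal_mul, Complex.re_ofReal_mul]
      have h5 : 0 ≤ r ^ 2 := by positivity
      calc r ^ 2 * (quad (N z) η).re ≤ r ^ 2 * ((|B| + 1) / m * (quad (M z) η).re) :=
            mul_le_mul_of_nonneg_left h3 h5
        _ = (|B| + 1) / m * (r ^ 2 * (quad (M z) η).re) := by ring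
  · refine ⟨1, one_pos, fun z hz ξ => ?_⟩
    by_cases hξ : ξ = 0
    · subst hξ
      have h2 : ∀ M : Matrix (Fin n) (Fin n) ℂ, quad M (0 : Cm n) = 0 := fun M => by simp [quad]
      rw [h2, h2]; simp
    · exfalso
      apply hne
      have hr : 0 < ‖ξ‖ := norm_pos_iff.2 hξ
      refine ⟨(z, (‖ξ‖⁻¹ : ℝ) • ξ), hz, ?_⟩
      rw [hS, mem_sphere_zero_iff_norm, norm_smul, norm_inv, norm_norm, inv_mul_cancel₀ hr.ne']

end Vale.Agent.P272.K
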