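import Vale.Agent.P272.K.Inv.Hess
import Mathlib.Geometry.Manifold.IsManifold.ExtChartAt
import Mathlib.Geometry.Manifold.ContMDiff.Atlas
import Mathlib.Geometry.Manifold.ContMDiff.NormedSpace

/-! Chart changes: Jacobian cocycle, invariance of traces etc. -/

open scoped Manifold ContDiff ComplexOrder Topology
open Complex

set_option linter.all false

noncomputable section

namespace Vale.Agent.P272.K

variable {n : ℕ} {X : Type*} [TopologicalSpace X] [ChartedSpace (Cm n) X]
  {e e' e'' : Chart n X} {x : X}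

lemma jacM_eq (e e' : Chart n X) (x : X) : jacM e e' x = jmat (fun z => e' (e.symm z)) (e x) := rfl

lemma At.mem_target (h : At e x) : e x ∈ e.target := e.map_source h.2

lemma At.left_inv (h : At e x) : e.symm (e x) = x := e.left_inv h.2

lemma At.nhds_target (h : At e x) : ∀ᶠ z in 𝓝 (e x), z ∈ e.target :=
  e.open_target.mem_nhds h.mem_target

lemma At.of_target (he : e ∈ atlas (Cm n) X) {z : Cm n} (hz : z ∈ e.target) : At e (e.symm z) :=
  ⟨he, e.map_target hz⟩

/-- near `e x`, the point `e.symm z` is in the domain of any other chart around `x` -/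
lemma At.nhds_at (h : At e x) (h' : At e' x) : ∀ᶠ z in 𝓝 (e x), z ∈ e.target ∧ At e (e.symm z) ∧
    At e' (e.symm z) := by
  have h2 : ∀ᶠ z in 𝓝 (e x), e.symm z ∈ e'.source := by
    have := (e.continuousAt_symm h.mem_target).eventually
      (e'.open_source.mem_nhds (by rw [h.left_inv]; exact h'.2))
    exact this
  filter_upwards [h.nhds_target, h2] with z hz hz'
  exact ⟨hz, At.of_target h.1 hz, ⟨h'.1, hz'⟩⟩

variable [IsManifold 𝓘(ℂ, Cm n) ω X]

lemma chart_contMDiffAt (h : At e x) : ContMDiffAt 𝓘(ℂ, Cm n) 𝓘(ℂ, Cm n) ω e x :=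
  (contMDiffOn_of_mem_maximalAtlas (IsManifold.subset_maximalAtlas h.1)).contMDiffAt
    (e.open_source.mem_nhds h.2)

lemma chart_symm_contMDiffAt (he : e ∈ atlas (Cm n) X)
    {w : Cm n} (hw : w ∈ e.target) : ContMDiffAt 𝓘(ℂ, Cm n) 𝓘(ℂ, Cm n) ω e.symm w :=
  (contMDiffOn_symm_of_mem_maximalAtlas (IsManifold.subset_maximalAtlas he)).contMDiffAt
    (e.open_target.mem_nhds hw)

/-- transition maps are holomorphic -/
lemma transition (h : At e x) (h' : At e' x) :
    ContDiffAt ℂ ω (fun z => e' (e.symm z)) (e x) := by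
  rw [← contMDiffAt_iff_contDiffAt]
  have h1 := chart_symm_contMDiffAt h.1 h.mem_target
  refine ContMDiffAt.comp (e x) (g := e') ?_ h1
  rw [h.left_inv]
  exact chart_contMDiffAt h'

lemma transition_differentiableAt (h : At e x) (h' : At e' x) :
    DifferentiableAt ℂ (fun z => e' (e.symm z)) (e x) :=
  (transition h h').differentiableAt (by simp)

lemma jmat_comp {τ σ : Cm n → Cm n} {z : Cm n} (hσ : DifferentiableAt ℂ σ (τ z))
    (hτ : DifferentiableAt ℂ τ z) :
    jmat (fun y => σ (τ y)) z = jmat σ (τ z) * jmat τ z := by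
  ext p i
  have h1 : DifferentiableAt ℝ (fun y => σ y p) (τ z) :=
    (differentiableAt_comp_apply hσ p).restrictScalars ℝ
  rw [Matrix.mul_apply]
  exact dz_comp_holo (f := fun y => σ y p) h1 hτ

lemma jmat_id (z : Cm n) : jmat (fun y : Cm n => y) z = 1 := by
  ext p i
  have h : DifferentiableAt ℂ (fun y : Cm n => y) z := differentiableAt_id
  rw [jmat_apply h]
  have h2 : fderiv ℂ (fun y : Cm n => y) z = ContinuousLinearMap.id ℂ (Cm n) := fderiv_id
  rw [h2]
  simp [Matrix.one_apply, Pi.single_apply]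

lemma jmat_congr {τ σ : Cm n → Cm n} {z : Cm n} (h : τ =ᶠ[𝓝 z] σ) : jmat τ z = jmat σ z := by
  ext p i
  exact dz_congr (by filter_upwards [h] with y hy; rw [hy])

/-- cocycle rule -/
lemma jacM_comp (h : At e x) (h' : At e' x) (h'' : At e'' x) :
    jacM e e'' x = jacM e' e'' x * jacM e e' x := by
  rw [jacM_eq, jacM_eq, jacM_eq]
  have h1 : (fun z => e'' (e.symm z)) =ᶠ[𝓝 (e x)] fun z => e'' (e'.symm (e' (e.symm z))) := by
    filter_upwards [h.nhds_at h'] with z hz
    rw [hz.2.2.left_inv]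
  rw [jmat_congr h1]
  have h2 : e' (e.symm (e x)) = e' x := by rw [h.left_inv]
  have := jmat_comp (τ := fun z => e' (e.symm z)) (σ := fun z => e'' (e'.symm z)) (z := e x)
    (by rw [h2]; exact transition_differentiableAt h' h'') (transition_differentiableAt h h')
  rw [this, h2]

lemma jacM_self (h : At e x) : jacM e e x = 1 := by
  rw [jacM_eq, ← jmat_id (e x)]
  exact jmat_congr (by filter_upwards [h.nhds_target] with z hz using e.right_inv hz)

lemma jacM_mul (h : At e x) (h' : At e' x) : jacM e' e x * jacM e e' x = 1 := by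
  rw [← jacM_comp h h' h, jacM_self h]

lemma jacM_det_ne_zero (h : At e x) (h' : At e' x) : (jacM e e' x).det ≠ 0 := by
  intro h0
  have := congrArg Matrix.det (jacM_mul h h')
  rw [Matrix.det_mul, h0, mul_zero, Matrix.det_one] at this
  exact zero_ne_one this

lemma jacM_isUnit (h : At e x) (h' : At e' x) : IsUnit (jacM e e' x).det :=
  isUnit_iff_ne_zero.2 (jacM_det_ne_zero h h')

/-- near `e x`, `jacM e e' (e.symm z)` is the Jacobian matrix of the transition at `z`. -/
lemma jacM_eventually (h : At e x) (h' : At e' x) :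
    (fun z => jacM e e' (e.symm z)) =ᶠ[𝓝 (e x)] fun z => jmat (fun z => e' (e.symm z)) z := by
  filter_upwards [h.nhds_target] with z hz
  rw [jacM_eq, e.right_inv hz]

lemma jacM_holo (h : At e x) (h' : At e' x) (p i : Fin n) :
    ContDiffAt ℂ ω (fun z => jacM e e' (e.symm z) p i) (e x) :=
  (jmat_holo (transition h h') p i).congr_of_eventuallyEq
    (by filter_upwards [jacM_eventually h h'] with z hz; rw [hz])

lemma jacM_det_holo (h : At e x) (h' : At e' x) :
    ContDiffAt ℂ ω (fun z => (jacM e e' (e.symm z)).det) (e x) := by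
  have : (fun z => (jacM e e' (e.symm z)).det) = fun z => ∑ σ : Equiv.Perm (Fin n),
      (Equiv.Perm.sign σ : ℂ) * ∏ i, jacM e e' (e.symm z) (σ i) i := by
    funext z; rw [Matrix.det_apply']
  rw [this]
  exact ContDiffAt.sum fun σ _ => contDiffAt_const.mul (contDiffAt_prod fun i _ => jacM_holo h h' _ _)

/-- `b` transforms like the coefficient matrix of a `(1,1)`-form. -/
def IsForm (b : Chart n X → Cm n → Matrix (Fin n) (Fin n) ℂ) : Prop :=
  ∀ e e' x, At e x → At e' x →
    b e (e x) = (jacM e e' x).transpose * b e' (e' x) * (jacM e e' x).map (starRingEnd ℂ)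

lemma IsHermitian.isForm {h : Chart n X → Cm n → Matrix (Fin n) (Fin n) ℂ} (hh : IsHermitian h) :
    IsForm h := hh.change

lemma IsForm.add {b c : Chart n X → Cm n → Matrix (Fin n) (Fin n) ℂ} (hb : IsForm b)
    (hc : IsForm c) : IsForm fun e z => b e z + c e z := by
  intro e e' x h h'
  show b e (e x) + c e (e x) = _ * (b e' (e' x) + c e' (e' x)) * _
  rw [hb e e' x h h', hc e e' x h h', Matrix.mul_add, Matrix.add_mul]

lemma IsForm.smul {b : Chart n X → Cm n → Matrix (Fin n) (Fin n) ℂ} (c : ℂ) (hb : IsForm b) :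
    IsForm fun e z => c • b e z := by
  intro e e' x h h'
  show c • b e (e x) = _ * (c • b e' (e' x)) * _
  rw [hb e e' x h h', Matrix.mul_smul, Matrix.smul_mul]

/-- the complex Hessian of a function on `X` is a form -/
lemma isForm_cHess {u : X → ℝ}
    (hu : ∀ (e : Chart n X) (x : X), At e x → ContDiffAt ℝ 2 (fun z => u (e.symm z)) (e x)) :
    IsForm fun (e : Chart n X) z => cHess (fun y => u (e.symm y)) z := by
  intro e e' x h h'
  have h1 : (fun y => u (e.symm y)) =ᶠ[𝓝 (e x)] fun y => u (e'.symm (e' (e.symm y))) := by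
    filter_upwards [h.nhds_at h'] with z hz
    rw [hz.2.2.left_inv]
  have h2 : e' (e.symm (e x)) = e' x := by rw [h.left_inv]
  show cHess (fun y => u (e.symm y)) (e x) = _
  rw [cHess_congr h1]
  have := cHess_comp (τ := fun z => e' (e.symm z)) (f := fun y => u (e'.symm y)) (z := e x)
    (by rw [h2]; exact hu e' x h') (transition h h')
  rw [h2] at this
  exact this

/-- the curvature of a metric on the canonical bundle is a form -/
lemma isForm_canonical {φ : Chart n X → Cm n → ℝ}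
    (hs : ∀ e x, At e x → ContDiffAt ℝ 2 (φ e) (e x))
    (hc : ∀ e e' x, At e x → At e' x →
      φ e (e x) = φ e' (e' x) + Real.log (‖(jacM e e' x).det‖ ^ 2)) :
    IsForm fun e z => cHess (φ e) z := by
  intro e e' x h h'
  have h1 : φ e =ᶠ[𝓝 (e x)] fun y => φ e' (e' (e.symm y)) +
      Real.log (‖(jacM e e' (e.symm y)).det‖ ^ 2) := by
    filter_upwards [h.nhds_at h'] with z hz
    have := hc e e' (e.symm z) hz.2.1 hz.2.2
    rw [e.right_inv hz.1] at this
    exact this
  have h2 : e' (e.symm (e x)) = e' x := by rw [h.left_inv]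
  have h3 : ContDiffAt ℝ 2 (fun y => Real.log (‖(jacM e e' (e.symm y)).det‖ ^ 2)) (e x) := by
    have hd : ContDiffAt ℝ 2 (fun y => (jacM e e' (e.symm y)).det) (e x) :=
      ((jacM_det_holo h h').restrict_scalars ℝ).of_le (by exact le_top)
    refine (hd.norm_sq ℝ).log ?_
    rw [h.left_inv]
    exact pow_ne_zero 2 (norm_ne_zero_iff.2 (jacM_det_ne_zero h h'))
  have h4 : ContDiffAt ℝ 2 (fun y => φ e' (e' (e.symm y))) (e x) := by
    have h5 : ContDiffAt ℝ 2 (fun z => e' (e.symm z)) (e x) :=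
      ((transition h h').restrict_scalars ℝ).of_le (by exact le_top)
    exact ContDiffAt.comp (e x) (g := φ e') (by rw [h2]; exact hs e' x h') h5
  show cHess (φ e) (e x) = _
  rw [cHess_congr h1, cHess_add h4 h3, cHess_log_norm_sq (jacM_det_holo h h')
    (by rw [h.left_inv]; exact jacM_det_ne_zero h h'), add_zero]
  have := cHess_comp (τ := fun z => e' (e.symm z)) (f := φ e') (z := e x)
    (by rw [h2]; exact hs e' x h') (transition h h')
  rw [h2] at this
  exact this

/-- difference of two metrics on the canonical bundle is a function -/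
lemma canonical_diff {φ ψ : Chart n X → Cm n → ℝ}
    (hc : ∀ e e' x, At e x → At e' x →
      φ e (e x) = φ e' (e' x) + Real.log (‖(jacM e e' x).det‖ ^ 2))
    (hc' : ∀ e e' x, At e x → At e' x →
      ψ e (e x) = ψ e' (e' x) + Real.log (‖(jacM e e' x).det‖ ^ 2)) (h : At e x) (h' : At e' x) :
    φ e (e x) - ψ e (e x) = φ e' (e' x) - ψ e' (e' x) := by
  rw [hc e e' x h h', hc' e e' x h h']; ring

lemma det_form {b : Chart n X → Cm n → Matrix (Fin n) (Fin n) ℂ} (hb : IsForm b)
    (h : At e x) (h' : At e' x) :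
    (b e (e x)).det = ((‖(jacM e e' x).det‖ ^ 2 : ℝ) : ℂ) * (b e' (e' x)).det := by
  rw [hb e e' x h h', Matrix.det_mul, Matrix.det_mul, Matrix.det_transpose]
  have : ((jacM e e' x).map (starRingEnd ℂ)).det = (starRingEnd ℂ) (jacM e e' x).det := by
    rw [RingHom.map_det]; rfl
  rw [this]
  have h2 : (jacM e e' x).det * (starRingEnd ℂ) (jacM e e' x).det =
      ((‖(jacM e e' x).det‖ ^ 2 : ℝ) : ℂ) := by
    rw [Complex.mul_conj, Complex.normSq_eq_norm_sq]
  linear_combination (b e' (e' x)).det * h2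

lemma det_form_re {b : Chart n X → Cm n → Matrix (Fin n) (Fin n) ℂ} (hb : IsForm b)
    (h : At e x) (h' : At e' x) :
    (b e (e x)).det.re = ‖(jacM e e' x).det‖ ^ 2 * (b e' (e' x)).det.re := by
  rw [det_form hb h h', Complex.re_ofReal_mul]

section mat

variable {J g h c : Matrix (Fin n) (Fin n) ℂ}

lemma isUnit_conj (hJ : IsUnit J.det) : IsUnit (J.map (starRingEnd ℂ)).det := by
  have : (J.map (starRingEnd ℂ)).det = (starRingEnd ℂ) J.det := by
    rw [RingHom.map_det]; rfl
  rw [this]; exact hJ.map _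

/-- `(Jᵀ g J̄)⁻¹ = J̄⁻¹ g⁻¹ J⁻ᵀ` -/
lemma inv_form (hJ : IsUnit J.det) :
    (J.transpose * g * J.map (starRingEnd ℂ))⁻¹ =
      (J.map (starRingEnd ℂ))⁻¹ * g⁻¹ * (J.transpose)⁻¹ := by
  rw [Matrix.mul_inv_rev, Matrix.mul_inv_rev, Matrix.mul_assoc]

lemma inv_mul_form (hJ : IsUnit J.det) :
    (J.transpose * g * J.map (starRingEnd ℂ))⁻¹ * (J.transpose * h * J.map (starRingEnd ℂ)) =
      (J.map (starRingEnd ℂ))⁻¹ * (g⁻¹ * h) * J.map (starRingEnd ℂ) := by
  rw [inv_form hJ]
  have h1 : (J.transpose)⁻¹ * J.transpose = 1 :=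
    Matrix.nonsing_inv_mul _ (by rw [Matrix.det_transpose]; exact hJ)
  calc (J.map (starRingEnd ℂ))⁻¹ * g⁻¹ * (J.transpose)⁻¹ * (J.transpose * h * J.map (starRingEnd ℂ))
      = (J.map (starRingEnd ℂ))⁻¹ * g⁻¹ * ((J.transpose)⁻¹ * J.transpose) * h *
          J.map (starRingEnd ℂ) := by simp only [Matrix.mul_assoc]
    _ = _ := by rw [h1]; simp only [Matrix.mul_assoc, Matrix.one_mul, Matrix.mul_one]

/-- invariance of `tr_g h` -/
lemma trace_form (hJ : IsUnit J.det) :
    ((J.transpose * g * J.map (starRingEnd ℂ))⁻¹ *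
      (J.transpose * h * J.map (starRingEnd ℂ))).trace = (g⁻¹ * h).trace := by
  rw [inv_mul_form hJ, Matrix.mul_assoc, Matrix.trace_mul_comm, Matrix.mul_assoc,
    Matrix.mul_nonsing_inv _ (isUnit_conj hJ), Matrix.mul_one]

/-- invariance of `<h, c>_g` -/
lemma trace_form2 (hJ : IsUnit J.det) :
    ((J.transpose * g * J.map (starRingEnd ℂ))⁻¹ *
      (J.transpose * h * J.map (starRingEnd ℂ)) * ((J.transpose * g * J.map (starRingEnd ℂ))⁻¹ *
      (J.transpose * c * J.map (starRingEnd ℂ)))).trace = (g⁻¹ * h * (g⁻¹ * c)).trace := by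
  rw [inv_mul_form hJ, inv_mul_form hJ]
  have h1 : J.map (starRingEnd ℂ) * (J.map (starRingEnd ℂ))⁻¹ = 1 :=
    Matrix.mul_nonsing_inv _ (isUnit_conj hJ)
  have : (J.map (starRingEnd ℂ))⁻¹ * (g⁻¹ * h) * J.map (starRingEnd ℂ) *
      ((J.map (starRingEnd ℂ))⁻¹ * (g⁻¹ * c) * J.map (starRingEnd ℂ)) =
      (J.map (starRingEnd ℂ))⁻¹ * ((g⁻¹ * h * (g⁻¹ * c)) * J.map (starRingEnd ℂ)) := by
    calc _ = (J.map (starRingEnd ℂ))⁻¹ * (g⁻¹ * h) * (J.map (starRingEnd ℂ) *
      (J.map (starRingEnd ℂ))⁻¹) * (g⁻¹ * c) * J.map (starRingEnd ℂ) := by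
          simp only [Matrix.mul_assoc]
      _ = _ := by rw [h1]; simp only [Matrix.mul_assoc, Matrix.one_mul]
  rw [this, Matrix.trace_mul_comm, Matrix.mul_assoc, h1, Matrix.mul_one]

end mat

lemma trace_inv {b c : Chart n X → Cm n → Matrix (Fin n) (Fin n) ℂ} (hb : IsForm b)
    (hc : IsForm c) (h : At e x) (h' : At e' x) :
    ((b e (e x))⁻¹ * c e (e x)).trace = ((b e' (e' x))⁻¹ * c e' (e' x)).trace := by
  rw [hb e e' x h h', hc e e' x h h', trace_form (jacM_isUnit h h')]

lemma trace_inv2 {b c d : Chart n X → Cm n → Matrix (Fin n) (Fin n) ℂ} (hb : IsForm b)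
    (hc : IsForm c) (hd : IsForm d) (h : At e x) (h' : At e' x) :
    ((b e (e x))⁻¹ * c e (e x) * ((b e (e x))⁻¹ * d e (e x))).trace =
      ((b e' (e' x))⁻¹ * c e' (e' x) * ((b e' (e' x))⁻¹ * d e' (e' x))).trace := by
  rw [hb e e' x h h', hc e e' x h h', hd e e' x h h', trace_form2 (jacM_isUnit h h')]

end Vale.Agent.P272.K
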