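import Vale.Agent.P272.K.Stmt
import Mathlib.Analysis.Calculus.ContDiff.FiniteDimension
import Mathlib.Analysis.Calculus.FDeriv.RestrictScalars
import Mathlib.Analysis.Calculus.FDeriv.Symmetric

/-! Wirtinger calculus for `dz`, `dzb`, `cHess`. -/

open scoped Manifold ContDiff ComplexOrder Topology
open Complex

set_option linter.all false

noncomputable section

namespace Vale.Agent.P272.K

variable {n : ℕ}

/-- complex conjugation -/
abbrev cj (z : ℂ) : ℂ := (starRingEnd ℂ) z

section basic
variable {f g : Cm n → ℂ} {z : Cm n} {i j k : Fin n}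

lemma dz_congr (h : f =ᶠ[𝓝 z] g) : dz i f z = dz i g z := by
  unfold dz; rw [h.fderiv_eq]

lemma dzb_congr (h : f =ᶠ[𝓝 z] g) : dzb i f z = dzb i g z := by
  unfold dzb; rw [h.fderiv_eq]

lemma dz_congr_ev (h : f =ᶠ[𝓝 z] g) : dz i f =ᶠ[𝓝 z] dz i g := by
  filter_upwards [h.eventuallyEq_nhds] with w hw using dz_congr hw

lemma dzb_congr_ev (h : f =ᶠ[𝓝 z] g) : dzb i f =ᶠ[𝓝 z] dzb i g := by
  filter_upwards [h.eventuallyEq_nhds] with w hw using dzb_congr hw

lemma dz_const (c : ℂ) : dz i (fun _ : Cm n => c) z = 0 := by simp [dz]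

lemma dzb_const (c : ℂ) : dzb i (fun _ : Cm n => c) z = 0 := by simp [dzb]

lemma dz_add (hf : DifferentiableAt ℝ f z) (hg : DifferentiableAt ℝ g z) :
    dz i (fun y => f y + g y) z = dz i f z + dz i g z := by
  unfold dz
  rw [show (fun y => f y + g y) = f + g from rfl, fderiv_add hf hg]
  simp only [add_apply]; ring

lemma dzb_add (hf : DifferentiableAt ℝ f z) (hg : DifferentiableAt ℝ g z) :
    dzb i (fun y => f y + g y) z = dzb i f z + dzb i g z := by
  unfold dzb
  rw [show (fun y => f y + g y) = f + g from rfl, fderiv_add hf hg]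
  simp only [add_apply]; ring

lemma dz_neg : dz i (fun y => -f y) z = -dz i f z := by
  unfold dz
  rw [show (fun y => -f y) = -f from rfl, fderiv_neg]
  simp only [neg_apply]; ring

lemma dzb_neg : dzb i (fun y => -f y) z = -dzb i f z := by
  unfold dzb
  rw [show (fun y => -f y) = -f from rfl, fderiv_neg]
  simp only [neg_apply]; ring

lemma dz_sub (hf : DifferentiableAt ℝ f z) (hg : DifferentiableAt ℝ g z) :
    dz i (fun y => f y - g y) z = dz i f z - dz i g z := by
  unfold dz
  rw [show (fun y => f y - g y) = f - g from rfl, fderiv_sub hf hg]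
  simp only [sub_apply]; ring

lemma dzb_sub (hf : DifferentiableAt ℝ f z) (hg : DifferentiableAt ℝ g z) :
    dzb i (fun y => f y - g y) z = dzb i f z - dzb i g z := by
  unfold dzb
  rw [show (fun y => f y - g y) = f - g from rfl, fderiv_sub hf hg]
  simp only [sub_apply]; ring

lemma dz_mul (hf : DifferentiableAt ℝ f z) (hg : DifferentiableAt ℝ g z) :
    dz i (fun y => f y * g y) z = dz i f z * g z + f z * dz i g z := by
  unfold dz
  rw [show (fun y => f y * g y) = f * g from rfl, fderiv_mul hf hg]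
  simp only [add_apply, smul_apply, smul_eq_mul]; ring

lemma dzb_mul (hf : DifferentiableAt ℝ f z) (hg : DifferentiableAt ℝ g z) :
    dzb i (fun y => f y * g y) z = dzb i f z * g z + f z * dzb i g z := by
  unfold dzb
  rw [show (fun y => f y * g y) = f * g from rfl, fderiv_mul hf hg]
  simp only [add_apply, smul_apply, smul_eq_mul]; ring

lemma dz_const_mul (c : ℂ) (hf : DifferentiableAt ℝ f z) :
    dz i (fun y => c * f y) z = c * dz i f z := by
  rw [dz_mul (differentiableAt_const c) hf, dz_const]; ring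

lemma dzb_const_mul (c : ℂ) (hf : DifferentiableAt ℝ f z) :
    dzb i (fun y => c * f y) z = c * dzb i f z := by
  rw [dzb_mul (differentiableAt_const c) hf, dzb_const]; ring

lemma dz_sum {ι : Type*} (s : Finset ι) {F : ι → Cm n → ℂ}
    (h : ∀ a ∈ s, DifferentiableAt ℝ (F a) z) :
    dz i (fun y => ∑ a ∈ s, F a y) z = ∑ a ∈ s, dz i (F a) z := by
  classical
  induction s using Finset.induction_on with
  | empty => simp [dz_const]
  | insert a s ha ih =>
    simp only [Finset.sum_insert ha]
    rw [dz_add (h a (Finset.mem_insert_self a s))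
      (DifferentiableAt.fun_sum fun b hb => h b (Finset.mem_insert_of_mem hb)),
      ih fun b hb => h b (Finset.mem_insert_of_mem hb)]

lemma dzb_sum {ι : Type*} (s : Finset ι) {F : ι → Cm n → ℂ}
    (h : ∀ a ∈ s, DifferentiableAt ℝ (F a) z) :
    dzb i (fun y => ∑ a ∈ s, F a y) z = ∑ a ∈ s, dzb i (F a) z := by
  classical
  induction s using Finset.induction_on with
  | empty => simp [dzb_const]
  | insert a s ha ih =>
    simp only [Finset.sum_insert ha]
    rw [dzb_add (h a (Finset.mem_insert_self a s))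
      (DifferentiableAt.fun_sum fun b hb => h b (Finset.mem_insert_of_mem hb)),
      ih fun b hb => h b (Finset.mem_insert_of_mem hb)]

lemma fderiv_cj (hf : DifferentiableAt ℝ f z) (v : Cm n) :
    fderiv ℝ (fun y => cj (f y)) z v = cj (fderiv ℝ f z v) := by
  have h : (fun y => cj (f y)) = fun y => Complex.conjCLE (f y) := by
    funext y; simp [cj]
  rw [h]
  have := (Complex.conjCLE.toContinuousLinearMap.hasFDerivAt (x := f z)).comp z hf.hasFDerivAt
  rw [show (fun y => Complex.conjCLE (f y)) = (Complex.conjCLE.toContinuousLinearMap : ℂ → ℂ) ∘ f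
    from rfl, this.fderiv]
  simp [cj]

lemma dz_cj (hf : DifferentiableAt ℝ f z) : dz i (fun y => cj (f y)) z = cj (dzb i f z) := by
  unfold dz dzb
  rw [fderiv_cj hf, fderiv_cj hf]
  simp [cj, sub_eq_add_neg, map_ofNat]

lemma dzb_cj (hf : DifferentiableAt ℝ f z) : dzb i (fun y => cj (f y)) z = cj (dz i f z) := by
  unfold dz dzb
  rw [fderiv_cj hf, fderiv_cj hf]
  simp [cj, sub_eq_add_neg, map_ofNat]

/-- differential in terms of Wirtinger derivatives -/
lemma fderiv_eq (f : Cm n → ℂ) (z v : Cm n) :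
    fderiv ℝ f z v = ∑ i, (dz i f z * v i + dzb i f z * cj (v i)) := by
  have h : v = ∑ i, ((v i).re • (Pi.single i (1 : ℂ) : Cm n) +
      (v i).im • (Pi.single i Complex.I : Cm n)) := by
    funext j
    simp only [Finset.sum_apply, Pi.add_apply, Pi.smul_apply]
    rw [Finset.sum_eq_single j]
    · simp [Complex.re_add_im]
    · intro b _ hb; simp [hb.symm]
    · simp
  conv_lhs => rw [h]
  rw [map_sum]
  refine Finset.sum_congr rfl fun i _ => ?_
  rw [map_add, map_smul, map_smul]
  unfold dz dzb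
  set A := fderiv ℝ f z (Pi.single i 1)
  set B := fderiv ℝ f z (Pi.single i Complex.I)
  have h1 : v i = ((v i).re : ℂ) + (v i).im * Complex.I := (Complex.re_add_im _).symm
  have h2 : cj (v i) = ((v i).re : ℂ) - (v i).im * Complex.I := by
    apply Complex.ext <;> simp [cj]
  rw [h2]
  conv_rhs => rw [h1]
  simp only [Complex.real_smul]
  ring_nf
  simp only [Complex.I_sq, Complex.add_re, Complex.ofReal_re, Complex.mul_re, Complex.I_re, mul_zero,
    Complex.ofReal_im, Complex.I_im, sub_self, add_zero, Complex.add_im,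
    Complex.mul_im, mul_one, zero_add]
  ring

end basic

section holo

/-- Jacobian matrix `(∂τ_p/∂z_i)` of a map. -/
def jmat (τ : Cm n → Cm n) (z : Cm n) : Matrix (Fin n) (Fin n) ℂ :=
  Matrix.of fun p i => dz i (fun y => τ y p) z

variable {f : Cm n → ℂ} {τ : Cm n → Cm n} {z : Cm n} {i j k : Fin n}

lemma fderivR_of_holo {F : Type*} [NormedAddCommGroup F] [NormedSpace ℂ F] {τ : Cm n → F}
    (h : DifferentiableAt ℂ τ z) (v : Cm n) : fderiv ℝ τ z v = fderiv ℂ τ z v := by
  rw [h.fderiv_restrictScalars ℝ]; rfl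

lemma differentiableAt_comp_apply (h : DifferentiableAt ℂ τ z) (p : Fin n) :
    DifferentiableAt ℂ (fun y => τ y p) z :=
  (differentiableAt_pi.1 h) p

lemma dz_of_holo (h : DifferentiableAt ℂ f z) : dz i f z = fderiv ℂ f z (Pi.single i 1) := by
  unfold dz
  rw [fderivR_of_holo h, fderivR_of_holo h]
  have : (Pi.single i Complex.I : Cm n) = Complex.I • Pi.single i 1 := by
    rw [← Pi.single_smul]; simp
  rw [this, map_smul, smul_eq_mul, ← mul_assoc, Complex.I_mul_I]; ring

lemma dzb_of_holo (h : DifferentiableAt ℂ f z) : dzb i f z = 0 := by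
  unfold dzb
  rw [fderivR_of_holo h, fderivR_of_holo h]
  have : (Pi.single i Complex.I : Cm n) = Complex.I • Pi.single i 1 := by
    rw [← Pi.single_smul]; simp
  rw [this, map_smul, smul_eq_mul, ← mul_assoc, Complex.I_mul_I]; ring

lemma jmat_apply (h : DifferentiableAt ℂ τ z) (p i : Fin n) :
    jmat τ z p i = (fderiv ℂ τ z (Pi.single i 1)) p := by
  unfold jmat
  rw [Matrix.of_apply, dz_of_holo (differentiableAt_comp_apply h p)]
  rw [fderiv_apply h p]
  rfl

lemma jmat_mulVec (h : DifferentiableAt ℂ τ z) (v : Cm n) (p : Fin n) :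
    fderiv ℂ τ z v p = ∑ i, jmat τ z p i * v i := by
  have hv : v = ∑ i, (v i) • (Pi.single i (1 : ℂ) : Cm n) := by
    funext j
    simp only [Finset.sum_apply, Pi.smul_apply]
    rw [Finset.sum_eq_single j]
    · simp
    · intro b _ hb; simp [hb.symm]
    · simp
  conv_lhs => rw [hv]
  rw [map_sum, Finset.sum_apply]
  refine Finset.sum_congr rfl fun i _ => ?_
  rw [map_smul, Pi.smul_apply, jmat_apply h, smul_eq_mul, mul_comm]

lemma fderiv_comp_holo (hf : DifferentiableAt ℝ f (τ z)) (h : DifferentiableAt ℂ τ z) (v : Cm n) :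
    fderiv ℝ (fun y => f (τ y)) z v = fderiv ℝ f (τ z) (fderiv ℂ τ z v) := by
  have h1 : DifferentiableAt ℝ τ z := h.restrictScalars ℝ
  rw [show (fun y => f (τ y)) = f ∘ τ from rfl, fderiv_comp z hf h1]
  simp only [ContinuousLinearMap.comp_apply]
  rw [fderivR_of_holo h]

/-- chain rule -/
lemma dz_comp_holo (hf : DifferentiableAt ℝ f (τ z)) (h : DifferentiableAt ℂ τ z) :
    dz i (fun y => f (τ y)) z = ∑ p, dz p f (τ z) * jmat τ z p i := by
  unfold dz
  rw [fderiv_comp_holo hf h, fderiv_comp_holo hf h, fderiv_eq, fderiv_eq]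
  have h2 : ∀ p, fderiv ℂ τ z (Pi.single i Complex.I) p = Complex.I * jmat τ z p i := by
    intro p
    rw [jmat_mulVec h, Finset.sum_eq_single i]
    · simp [mul_comm]
    · intro b _ hb; simp [hb]
    · simp
  have h3 : ∀ p, fderiv ℂ τ z (Pi.single i 1) p = jmat τ z p i := by
    intro p; rw [jmat_apply h]
  simp only [h2, h3]
  rw [Finset.mul_sum, ← Finset.sum_sub_distrib, Finset.sum_div]
  refine Finset.sum_congr rfl fun p _ => ?_
  have h4 : cj (Complex.I * jmat τ z p i) = -Complex.I * cj (jmat τ z p i) := by simp [cj]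
  rw [h4]
  have h5 : Complex.I * Complex.I = -1 := Complex.I_mul_I
  show _ = dz p f (τ z) * jmat τ z p i
  linear_combination (-(dz p f (τ z)) * jmat τ z p i / 2 + dzb p f (τ z) * cj (jmat τ z p i) / 2) * h5

lemma dzb_comp_holo (hf : DifferentiableAt ℝ f (τ z)) (h : DifferentiableAt ℂ τ z) :
    dzb i (fun y => f (τ y)) z = ∑ p, dzb p f (τ z) * cj (jmat τ z p i) := by
  unfold dzb
  rw [fderiv_comp_holo hf h, fderiv_comp_holo hf h, fderiv_eq, fderiv_eq]
  have h2 : ∀ p, fderiv ℂ τ z (Pi.single i Complex.I) p = Complex.I * jmat τ z p i := by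
    intro p
    rw [jmat_mulVec h, Finset.sum_eq_single i]
    · simp [mul_comm]
    · intro b _ hb; simp [hb]
    · simp
  have h3 : ∀ p, fderiv ℂ τ z (Pi.single i 1) p = jmat τ z p i := by
    intro p; rw [jmat_apply h]
  simp only [h2, h3]
  rw [Finset.mul_sum, ← Finset.sum_add_distrib, Finset.sum_div]
  refine Finset.sum_congr rfl fun p _ => ?_
  have h4 : cj (Complex.I * jmat τ z p i) = -Complex.I * cj (jmat τ z p i) := by simp [cj]
  rw [h4]
  have h5 : Complex.I * Complex.I = -1 := Complex.I_mul_I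
  show _ = dzb p f (τ z) * cj (jmat τ z p i)
  linear_combination (dz p f (τ z) * jmat τ z p i / 2 - dzb p f (τ z) * cj (jmat τ z p i) / 2) * h5

end holo

end Vale.Agent.P272.K
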